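import Mathlib

/-!
# P102: mixing forces mixing of order three outside few windows of times
-/

open MeasureTheory Filter
open scoped Topology

namespace Vale.Agent.Results.P102.FewExceptionalTimes

/-- If `T` is mixing then for every `C` and `ε > 0` there is a gap `G` such that, uniformly in all
measurable sets `D` (for instance intersections of any number of translates of other sets), every
set of times `m` pairwise at least `G` apart at which `μ(D ∩ T⁻ᵐC)` is `ε`-far from `μ(D) μ(C)`
has at most `2/ε²` elements. -/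
theorem result {Ω : Type*} [MeasurableSpace Ω] (μ : Measure Ω) [IsProbabilityMeasure μ]
    (T : Ω → Ω) (hT : MeasurePreserving T μ μ) (C : Set Ω) (hC : MeasurableSet C)
    (hmix : Tendsto (fun k : ℕ => μ.real (C ∩ T^[k] ⁻¹' C)) atTop (𝓝 (μ.real C * μ.real C)))
    (ε : ℝ) (hε : 0 < ε) :
    ∃ G : ℕ, ∀ D : Set Ω, MeasurableSet D → ∀ M : Finset ℕ,
      (∀ a ∈ M, ∀ b ∈ M, a < b → a + G ≤ b) →
      (∀ m ∈ M, ε ≤ |μ.real (D ∩ T^[m] ⁻¹' C) - μ.real D * μ.real C|) →
      (M.card : ℝ) ≤ 2 / ε ^ 2 := by
  classical
  set c := μ.real C with hc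
  obtain ⟨G, hG⟩ := (Metric.tendsto_atTop.1 hmix) (ε ^ 2 / 2) (by positivity)
  refine ⟨G, fun D hD M hgap hbad => ?_⟩
  have hc0 : 0 ≤ c := measureReal_nonneg
  have hc1 : c ≤ 1 := measureReal_le_one
  set E : ℕ → Set Ω := fun m => T^[m] ⁻¹' C with hEdef
  have hEm : ∀ m, MeasurableSet (E m) := fun m => (hT.iterate m).measurable hC
  have hEc : ∀ m, μ.real (E m) = c := fun m => by
    simp only [hEdef, hc, measureReal_def, (hT.iterate m).measure_preimage hC.nullMeasurableSet]
  set g : ℕ → Ω → ℝ := fun m ω => (E m).indicator (fun _ => (1 : ℝ)) ω - c with hg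
  have hind : ∀ {S : Set Ω}, MeasurableSet S → Integrable (S.indicator fun _ => (1 : ℝ)) μ :=
    fun hS => (integrable_const (1 : ℝ)).indicator hS
  have hgg : ∀ a b, Integrable (fun ω => g a ω * g b ω) μ ∧
      ∫ ω, g a ω * g b ω ∂μ = μ.real (E a ∩ E b) - c * c := by
    intro a b
    have e : (fun ω => g a ω * g b ω) = fun ω => (E a ∩ E b).indicator (fun _ => (1 : ℝ)) ω
        - c * (E a).indicator (fun _ => (1 : ℝ)) ω - c * (E b).indicator (fun _ => (1 : ℝ)) ω
        + c * c := by
      funext ω
      by_cases h1 : ω ∈ E a <;> by_cases h2 : ω ∈ E b <;> simp [hg, h1, h2] <;> ring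
    have i1 := hind ((hEm a).inter (hEm b))
    have i2 := (hind (hEm a)).const_mul c
    have i3 := (hind (hEm b)).const_mul c
    refine ⟨e ▸ ((i1.sub i2).sub i3).add (integrable_const _), ?_⟩
    rw [e, integral_add (f := fun ω => (E a ∩ E b).indicator (fun _ => (1 : ℝ)) ω
        - c * (E a).indicator (fun _ => (1 : ℝ)) ω - c * (E b).indicator (fun _ => (1 : ℝ)) ω)
        ((i1.sub i2).sub i3) (integrable_const _),
      integral_sub (f := fun ω => (E a ∩ E b).indicator (fun _ => (1 : ℝ)) ω
        - c * (E a).indicator (fun _ => (1 : ℝ)) ω) (i1.sub i2) i3,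
      integral_sub i1 i2, integral_const_mul, integral_const_mul,
      integral_indicator_const _ ((hEm a).inter (hEm b)), integral_indicator_const _ (hEm a),
      integral_indicator_const _ (hEm b), integral_const, hEc, hEc, probReal_univ]
    simp
  set d : ℕ → ℝ := fun m => μ.real (D ∩ E m) - μ.real D * c
  set s : ℕ → ℝ := fun m => if 0 ≤ d m then 1 else -1 with hs
  have hsd : ∀ m ∈ M, ε ≤ s m * d m := fun m hm => by
    have h : ε ≤ |d m| := hbad m hm
    simp only [hs]
    split_ifs with h0
    · simpa [abs_of_nonneg h0] using h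
    · simpa [abs_of_neg (not_le.1 h0)] using h
  have hss : ∀ m, |s m| = 1 := fun m => by simp only [hs]; split_ifs <;> simp
  set f : Ω → ℝ := fun ω => ∑ m ∈ M, s m * g m ω with hf
  have hf2e : (fun ω => f ω ^ 2) = fun ω => ∑ a ∈ M, ∑ b ∈ M, s a * s b * (g a ω * g b ω) := by
    funext ω
    simp only [hf, pow_two, Finset.sum_mul_sum]
    exact Finset.sum_congr rfl fun a _ => Finset.sum_congr rfl fun b _ => by ring
  have hi2 : ∀ a, Integrable (fun ω => ∑ b ∈ M, s a * s b * (g a ω * g b ω)) μ := fun a =>
    integrable_finsetSum _ fun b _ => (hgg a b).1.const_mul _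
  have hf2 : Integrable (fun ω => f ω ^ 2) μ := hf2e ▸ integrable_finsetSum _ fun a _ => hi2 a
  have hV : ∫ ω, f ω ^ 2 ∂μ ≤ M.card + (M.card : ℝ) ^ 2 * (ε ^ 2 / 2) := by
    rw [hf2e, integral_finsetSum _ fun a _ => hi2 a]
    have row : ∀ a ∈ M, ∫ ω, ∑ b ∈ M, s a * s b * (g a ω * g b ω) ∂μ
        ≤ 1 + M.card * (ε ^ 2 / 2) := by
      intro a ha
      rw [integral_finsetSum _ fun b _ => (hgg a b).1.const_mul _]
      have key : ∀ b ∈ M, ∫ ω, s a * s b * (g a ω * g b ω) ∂μ
          ≤ (if b = a then 1 else 0) + ε ^ 2 / 2 := by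
        intro b hb
        rw [integral_const_mul, (hgg a b).2]
        refine (le_abs_self _).trans ?_
        rw [abs_mul, abs_mul, hss, hss, one_mul, one_mul]
        by_cases hab : b = a
        · subst hab
          rw [if_pos rfl, Set.inter_self, hEc]
          rw [abs_le]; constructor <;> nlinarith [sq_nonneg ε]
        · rw [if_neg hab, zero_add]
          have cross : ∀ a b, a < b → a + G ≤ b → |μ.real (E a ∩ E b) - c * c| ≤ ε ^ 2 / 2 := by
            intro a b hlt hle
            have e : E a ∩ E b = T^[a] ⁻¹' (C ∩ T^[b - a] ⁻¹' C) := by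
              simp only [hEdef, Set.preimage_inter, ← Set.preimage_comp, ← Function.iterate_add]
              rw [Nat.sub_add_cancel hlt.le]
            have e' : μ.real (E a ∩ E b) = μ.real (C ∩ T^[b - a] ⁻¹' C) := by
              rw [e, measureReal_def, measureReal_def, (hT.iterate a).measure_preimage
                (hC.inter ((hT.iterate _).measurable hC)).nullMeasurableSet]
            rw [e']
            have := hG (b - a) (by omega)
            rw [Real.dist_eq] at this
            exact this.le
          rcases lt_or_gt_of_ne hab with h | h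
          · rw [Set.inter_comm]; exact cross b a h (hgap b hb a ha h)
          · exact cross a b h (hgap a ha b hb h)
      refine (Finset.sum_le_sum key).trans ?_
      simp [Finset.sum_add_distrib, ha]
    refine (Finset.sum_le_sum row).trans ?_
    simp only [Finset.sum_const, nsmul_eq_mul]
    ring_nf
    rfl
  have hdint : ∀ m, IntegrableOn (g m) D μ :=
    fun m => ((hind (hEm m)).sub (integrable_const c)).integrableOn
  have hfD : IntegrableOn f D μ := integrable_finsetSum _ fun m _ => (hdint m).const_mul _
  have hlow : (M.card : ℝ) * ε ≤ ∫ ω in D, f ω ∂μ := by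
    simp only [hf]
    rw [integral_finsetSum _ fun m _ => (hdint m).const_mul _,
      ← nsmul_eq_mul, ← Finset.sum_const]
    refine Finset.sum_le_sum fun m hm => ?_
    rw [integral_const_mul, hg]
    dsimp only
    rw [integral_sub (hind (hEm m)).integrableOn (integrable_const c).integrableOn,
      setIntegral_indicator (hEm m), setIntegral_const, setIntegral_const]
    simpa [d] using hsd m hm
  by_contra hbig
  push Not at hbig
  have hn : 0 < (M.card : ℝ) := lt_of_le_of_lt (by positivity) hbig
  set t := (M.card : ℝ) * ε with ht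
  have htpos : 0 < t := by positivity
  have hup : ∫ ω in D, f ω ∂μ ≤ ((∫ ω, f ω ^ 2 ∂μ) / t + t) / 2 := by
    have h1 : ∫ ω in D, f ω ∂μ ≤ ∫ ω in D, (f ω ^ 2 / t + t) / 2 ∂μ := by
      refine setIntegral_mono_on hfD
        (((hf2.div_const t).add (integrable_const t)).div_const 2).integrableOn hD fun ω _ => ?_
      have : f ω * (2 * t) ≤ f ω ^ 2 + t * t := by nlinarith [sq_nonneg (f ω - t)]
      rw [le_div_iff₀ two_pos, div_add' _ _ _ htpos.ne', le_div_iff₀ htpos]
      linarith
    refine h1.trans ((setIntegral_le_integral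
      (((hf2.div_const t).add (integrable_const t)).div_const 2)
      (ae_of_all _ fun ω => by simp only [Pi.add_apply, Pi.zero_apply]; positivity)).trans_eq ?_)
    simp only [Pi.add_apply]
    rw [integral_div, integral_add (hf2.div_const t) (integrable_const t), integral_div,
      integral_const]
    simp
  have h3 : t * t ≤ ∫ ω, f ω ^ 2 ∂μ := by
    have := hlow.trans hup
    rw [le_div_iff₀ two_pos] at this
    have h' : t ≤ (∫ ω, f ω ^ 2 ∂μ) / t := by linarith
    rwa [le_div_iff₀ htpos] at h'
  rw [div_lt_iff₀ (by positivity)] at hbig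
  nlinarith [h3.trans hV, hn]

end Vale.Agent.Results.P102.FewExceptionalTimes
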