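import Mathlib

/-!
# P102: no exact Ledrappier type witness against higher order mixing of one transformation

If `T` is mixing of order `d + 2` and the values of a finite valued observable at `d + 3` times with
gaps tending to infinity satisfy, with probability tending to one, a relation expressing one of them
through the others, then the observable is almost surely constant.

Proof: the limit law is the product law on `d + 2` coordinates with the last one a function of
them, so the function preserves the law of each window in each variable, which makes every window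
law uniform on its support. If some window determines its successor, the process is periodic, which
mixing forbids; otherwise the successor of every window is predicted with probability at most `1/2`.
-/

open MeasureTheory Filter Set
open scoped Topology

namespace Vale.Agent.Results.P102.NoExactWitness

variable {Ω : Type*} [MeasurableSpace Ω] {A : Type*}

/-- The window of length `n` of the process `f ∘ T^[j]`. -/
private def win (T : Ω → Ω) (f : Ω → A) (n : ℕ) (ω : Ω) : Fin n → A := fun j => f (T^[(j : ℕ)] ω)

private theorem measurable_win [MeasurableSpace A] {T : Ω → Ω} {f : Ω → A} (hT : Measurable T)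
    (hf : Measurable f) (n : ℕ) : Measurable (win T f n) :=
  measurable_pi_iff.2 fun j => hf.comp (hT.iterate j)

/-- The mass of a window. -/
private noncomputable def wmass (μ : Measure Ω) (T : Ω → Ω) (f : Ω → A) (n : ℕ)
    (y : Fin n → A) : ℝ := μ.real (win T f n ⁻¹' {y})

section

variable {μ : Measure Ω} [IsProbabilityMeasure μ] {T : Ω → Ω} {f : Ω → A} {d : ℕ}
variable [Fintype A] [MeasurableSpace A] [MeasurableSingletonClass A]

private theorem sum_real_fibre {B : Type*} [Fintype B] [MeasurableSpace B]
    [MeasurableSingletonClass B] {g : Ω → B} (hg : Measurable g) (S : Set Ω) :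
    ∑ b, μ.real (S ∩ g ⁻¹' {b}) = μ.real S := by
  classical
  have h := sum_measureReal_preimage_singleton (μ := μ.restrict S) (Finset.univ : Finset B) (f := g)
    (fun y _ => hg (measurableSet_singleton y))
  simp only [Finset.coe_univ, Set.preimage_univ, measureReal_restrict_apply_univ] at h
  rw [← h]
  refine Finset.sum_congr rfl fun b _ => ?_
  rw [measureReal_restrict_apply (hg (measurableSet_singleton b)), Set.inter_comm]

omit [IsProbabilityMeasure μ] in
private theorem real_preimage_iterate (hT : MeasurePreserving T μ μ) (j : ℕ) {S : Set Ω}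
    (hS : MeasurableSet S) : μ.real (T^[j] ⁻¹' S) = μ.real S := by
  simp only [measureReal_def, (hT.iterate j).measure_preimage hS.nullMeasurableSet]

/-- For the window laws `w`, fixing all arguments but one of a relation preserved in the limit maps
the law to itself. -/
private theorem marginal (hT : MeasurePreserving T μ μ) (hf : Measurable f)
    (hmix : ∀ (C : Fin (d + 2) → Set Ω) (s : ℕ → Fin (d + 2) → ℕ),
      (∀ i, MeasurableSet (C i)) →
      (∀ i j, i < j → Tendsto (fun k => s k j - s k i) atTop atTop) →
      Tendsto (fun k => μ.real (⋂ i, T^[s k i] ⁻¹' C i)) atTop (𝓝 (∏ i, μ.real (C i))))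
    (s : ℕ → Fin (d + 3) → ℕ)
    (hs : ∀ i j, i < j → Tendsto (fun k => s k j - s k i) atTop atTop)
    (p : Fin (d + 3)) (F : (Fin (d + 2) → A) → A)
    (hrel : Tendsto (fun k => μ.real
      {ω | f (T^[s k p] ω) = F fun i => f (T^[s k (p.succAbove i)] ω)}) atTop (𝓝 1))
    (n : ℕ) [DecidableEq (Fin n → A)] (r : Fin (d + 2) → Fin n → A) (i : Fin (d + 2))
    (hr : ∀ l, l ≠ i → 0 < wmass μ T f n (r l)) (z : Fin n → A) :
    wmass μ T f n z =
      ∑ y, if (fun j => F fun l => Function.update r i y l j) = z then wmass μ T f n y else 0 := by
  set W := win T f n with hW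
  have hWm : Measurable W := measurable_win hT.measurable hf n
  -- the windows at the times `s k`
  set u : ℕ → Fin (d + 3) → Ω → Fin n → A := fun k l ω => W (T^[s k l] ω) with hu
  have hum : ∀ k l, Measurable (u k l) := fun k l => hWm.comp (hT.measurable.iterate _)
  set R : ℕ → (Fin (d + 2) → Fin n → A) → Set Ω :=
    fun k v => ⋂ l, u k (p.succAbove l) ⁻¹' {v l} with hR
  have hRm : ∀ k v, MeasurableSet (R k v) := fun k v =>
    MeasurableSet.iInter fun l => hum k _ (measurableSet_singleton _)
  -- failure of the relation inside a window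
  set B : ℕ → Set Ω := fun k =>
    {ω | ∃ j : Fin n, u k p ω j ≠ F fun l => u k (p.succAbove l) ω j} with hB
  have hG : ∀ k, MeasurableSet
      {ω | f (T^[s k p] ω) = F fun i => f (T^[s k (p.succAbove i)] ω)} := by
    intro k
    refine measurableSet_eq_fun (hf.comp (hT.measurable.iterate _)) ?_
    exact (measurable_of_finite F).comp
      (measurable_pi_iff.2 fun l => hf.comp (hT.measurable.iterate _))
  have hB0 : Tendsto (fun k => μ.real (B k)) atTop (𝓝 0) := by
    have h0 : Tendsto (fun k => (n : ℝ) * μ.real
        {ω | f (T^[s k p] ω) = F fun i => f (T^[s k (p.succAbove i)] ω)}ᶜ) atTop (𝓝 0) := by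
      simp only [fun k => probReal_compl_eq_one_sub (μ := μ) (hG k)]
      simpa using (hrel.const_sub 1).const_mul (n : ℝ)
    refine squeeze_zero (fun k => measureReal_nonneg) (fun k => ?_) h0
    have hsub : B k ⊆ ⋃ j : Fin n, T^[(j : ℕ)] ⁻¹'
        {ω | f (T^[s k p] ω) = F fun i => f (T^[s k (p.succAbove i)] ω)}ᶜ := by
      rintro ω ⟨j, hj⟩
      refine mem_iUnion.2 ⟨j, ?_⟩
      simpa [hu, hW, win, ← Function.iterate_add_apply, add_comm] using hj
    refine (measureReal_mono hsub).trans ((measureReal_iUnion_fintype_le _).trans_eq ?_)
    rw [Finset.sum_congr rfl fun (j : Fin n) _ => real_preimage_iterate hT j.val (hG k).compl]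
    simp
  -- joint law with all windows but the determined one
  have hgap : ∀ q : Fin (d + 3), ∀ a b : Fin (d + 2), a < b →
      Tendsto (fun k => s k (q.succAbove b) - s k (q.succAbove a)) atTop atTop :=
    fun q a b hab => hs _ _ (Fin.strictMono_succAbove q hab)
  have lim1 : ∀ v, Tendsto (fun k => μ.real (R k v)) atTop (𝓝 (∏ l, wmass μ T f n (v l))) :=
    fun v => hmix (fun l => W ⁻¹' {v l}) (fun k l => s k (p.succAbove l))
      (fun l => hWm (measurableSet_singleton _)) (hgap p)
  have lim2 : ∀ v, Tendsto (fun k => μ.real (R k v ∩ u k p ⁻¹' {z})) atTop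
      (𝓝 (if (fun j => F fun l => v l j) = z then ∏ l, wmass μ T f n (v l) else 0)) := by
    intro v
    split_ifs with h
    · refine tendsto_of_tendsto_of_tendsto_of_le_of_le (by simpa using (lim1 v).sub hB0) (lim1 v)
        (fun k => ?_) (fun k => measureReal_mono inter_subset_left)
      have hsub : R k v ⊆ R k v ∩ u k p ⁻¹' {z} ∪ B k := by
        intro ω hω
        by_cases hb : ω ∈ B k
        · exact Or.inr hb
        refine Or.inl ⟨hω, ?_⟩
        simp only [hB, mem_ofPred_eq, not_exists, not_not] at hb
        simp only [hR, Set.mem_iInter, mem_preimage, mem_singleton_iff] at hω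
        simp only [mem_preimage, mem_singleton_iff]
        rw [← h]
        funext j
        rw [hb j]
        simp only [hω]
      have := (measureReal_mono (μ := μ) hsub).trans (measureReal_union_le _ _)
      linarith
    · refine squeeze_zero (fun k => measureReal_nonneg) (fun k => measureReal_mono ?_) hB0
      intro ω hω
      by_contra hb
      simp only [hB, mem_ofPred_eq, not_exists, not_not] at hb
      obtain ⟨h1, h2⟩ := hω
      simp only [hR, Set.mem_iInter, mem_preimage, mem_singleton_iff] at h1
      simp only [mem_preimage, mem_singleton_iff] at h2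
      refine h ?_
      funext j
      rw [← h2, hb j]
      simp only [h1]
  -- joint law with all windows but the one in position `i`
  set q := p.succAbove i with hq
  have hpq : p ≠ q := (Fin.succAbove_ne p i).symm
  obtain ⟨ip, hip⟩ := Fin.exists_succAbove_eq hpq
  set C : Fin (d + 3) → Fin n → A := fun l => Fin.insertNth (α := fun _ => Fin n → A) p z r l with hC
  have hCp : C p = z := by simp [hC]
  have hCs : ∀ l, C (p.succAbove l) = r l := fun l => by simp [hC]
  have lim3 := hmix (fun l => W ⁻¹' {C (q.succAbove l)}) (fun k l => s k (q.succAbove l))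
    (fun l => hWm (measurableSet_singleton _)) (hgap q)
  have split : ∀ k, μ.real (⋂ l, T^[s k (q.succAbove l)] ⁻¹' (W ⁻¹' {C (q.succAbove l)})) =
      ∑ y, μ.real (R k (Function.update r i y) ∩ u k p ⁻¹' {z}) := by
    intro k
    rw [← sum_real_fibre (hum k q)]
    refine Finset.sum_congr rfl fun y _ => congrArg _ ?_
    ext ω
    simp only [hR, Set.mem_inter_iff, Set.mem_iInter, mem_preimage, mem_singleton_iff]
    constructor
    · rintro ⟨h1, h2⟩
      refine ⟨fun l => ?_, ?_⟩
      · by_cases hl : l = i
        · subst hl; simpa using h2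
        · obtain ⟨l', hl'⟩ := Fin.exists_succAbove_eq
            (show p.succAbove l ≠ q from fun e => hl (Fin.succAbove_right_injective e))
          have := h1 l'
          rw [hl', hCs] at this
          simpa [hl, hu] using this
      · have := h1 ip
        rw [hip, hCp] at this
        simpa [hu] using this
    · rintro ⟨h1, h2⟩
      refine ⟨fun l => ?_, by simpa using h1 i⟩
      rcases Fin.eq_self_or_eq_succAbove p (q.succAbove l) with e | ⟨l', e⟩
      · rw [e, hCp]; exact h2
      · have hne : l' ≠ i := fun hh => Fin.succAbove_ne q l (by rw [e, hh])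
        have := h1 l'
        rw [Function.update_of_ne hne] at this
        rw [e, hCs]; exact this
  have huniq : ∏ l, wmass μ T f n (C (q.succAbove l)) =
      ∑ y, if (fun j => F fun l => Function.update r i y l j) = z
        then ∏ l, wmass μ T f n (Function.update r i y l) else 0 := by
    refine tendsto_nhds_unique lim3 ?_
    simp only [split]
    exact tendsto_finsetSum _ fun y _ => lim2 _
  have hP : ∀ y, ∏ l, wmass μ T f n (Function.update r i y l) =
      wmass μ T f n y * ∏ l ∈ Finset.univ.erase i, wmass μ T f n (r l) := by
    intro y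
    rw [← Finset.mul_prod_erase _ _ (Finset.mem_univ i), Function.update_self]
    congr 1
    exact Finset.prod_congr rfl fun l hl => by
      rw [Function.update_of_ne (Finset.ne_of_mem_erase hl)]
  have hpos : 0 < ∏ l ∈ Finset.univ.erase i, wmass μ T f n (r l) :=
    Finset.prod_pos fun l hl => hr l (Finset.ne_of_mem_erase hl)
  have hC' : ∏ l, wmass μ T f n (C (q.succAbove l)) =
      wmass μ T f n z * ∏ l ∈ Finset.univ.erase i, wmass μ T f n (r l) := by
    have e1 : ∏ l, wmass μ T f n (C (q.succAbove l)) =
        ∏ m ∈ Finset.univ.erase q, wmass μ T f n (C m) := by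
      refine (Finset.prod_map Finset.univ (Fin.succAboveEmb q)
        (fun m => wmass μ T f n (C m))).symm.trans (Finset.prod_congr ?_ fun _ _ => rfl)
      ext m
      simp [Fin.exists_succAbove_eq_iff]
    have e2 : Finset.univ.erase q =
        insert p ((Finset.univ.erase i).map (Fin.succAboveEmb p)) := by
      ext m
      rcases Fin.eq_self_or_eq_succAbove p m with rfl | ⟨l, rfl⟩
      · simp [hpq]
      · simp [hq, Fin.succAbove_ne, Fin.succAbove_right_injective.eq_iff]
    rw [e1, e2, Finset.prod_insert (by simp [Fin.succAbove_ne]), hCp, Finset.prod_map]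
    simp [hCs]
  rw [hC'] at huniq
  simp only [hP] at huniq
  refine mul_right_cancel₀ hpos.ne' (huniq.trans ?_)
  rw [Finset.sum_mul]
  exact Finset.sum_congr rfl fun y _ => by split_ifs <;> simp

end

/-- If `T` is mixing of order `d + 2` and, along times with all gaps tending to infinity, the value
of a finite valued `f` at the `p`-th of `d + 3` times is with probability tending to `1` a fixed
function of its values at the other times, then `f` is almost surely constant. -/
theorem result {Ω : Type*} [MeasurableSpace Ω] (μ : Measure Ω) [IsProbabilityMeasure μ]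
    (T : Ω → Ω) (hT : MeasurePreserving T μ μ) (d : ℕ)
    (hmix : ∀ (C : Fin (d + 2) → Set Ω) (s : ℕ → Fin (d + 2) → ℕ),
      (∀ i, MeasurableSet (C i)) →
      (∀ i j, i < j → Tendsto (fun k => s k j - s k i) atTop atTop) →
      Tendsto (fun k => μ.real (⋂ i, T^[s k i] ⁻¹' C i)) atTop (𝓝 (∏ i, μ.real (C i))))
    {A : Type*} [Fintype A] [MeasurableSpace A] [MeasurableSingletonClass A]
    (f : Ω → A) (hf : Measurable f)
    (s : ℕ → Fin (d + 3) → ℕ)
    (hs : ∀ i j, i < j → Tendsto (fun k => s k j - s k i) atTop atTop)
    (p : Fin (d + 3)) (F : (Fin (d + 2) → A) → A)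
    (hrel : Tendsto (fun k => μ.real
      {ω | f (T^[s k p] ω) = F fun i => f (T^[s k (p.succAbove i)] ω)}) atTop (𝓝 1)) :
    ∃ a, ∀ᵐ ω ∂μ, f ω = a := by
  classical
  have hTm := hT.measurable
  set w := wmass μ T f with hw
  have hWm := fun n => measurable_win (T := T) hTm hf n
  have w0 : ∀ n y, 0 ≤ w n y := fun n y => measureReal_nonneg
  have wsum : ∀ n, ∑ y, w n y = 1 := fun n => by
    simpa [hw, wmass] using sum_real_fibre (μ := μ) (hWm n) univ
  have wex : ∀ n, ∃ y, 0 < w n y := fun n => by
    by_contra h
    push Not at h
    have := Finset.sum_nonpos (s := Finset.univ) fun y _ => h y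
    linarith [wsum n]
  have marg := fun n => marginal (n := n) hT hf hmix s hs p F hrel
  -- the positive letters
  let S : Set A := {a | 0 < w 1 fun _ => a}
  have Sinv : ∀ (i : Fin (d + 2)) (r : Fin (d + 2) → A), (∀ l, l ≠ i → r l ∈ S) →
      Set.BijOn (fun a => F (Function.update r i a)) S S := by
    intro i r hr
    set τ := fun a => F (Function.update r i a) with hτ
    have key : ∀ b : A, w 1 (fun _ => b) =
        ∑ y : Fin 1 → A, if τ (y 0) = b then w 1 y else 0 := by
      intro b
      refine (marg 1 (fun l _ => r l) i hr fun _ => b).trans (Finset.sum_congr rfl fun y _ => ?_)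
      have e : ∀ j : Fin 1, (fun l => Function.update (fun l' _ => r l') i y l j) =
          Function.update r i (y 0) := fun j => by
        funext l
        rcases eq_or_ne l i with rfl | h
        · simp [Subsingleton.elim j 0]
        · simp [Function.update_of_ne h]
      simp only [funext_iff, e, hτ, hw, forall_const]
    have hmap : MapsTo τ S S := by
      intro a ha
      show 0 < w 1 fun _ => τ a
      rw [key]
      refine lt_of_lt_of_le (show 0 < w 1 fun _ => a from ha) ?_
      refine le_trans (le_of_eq ?_) (Finset.single_le_sum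
        (fun y _ => by split_ifs <;> simp [w0]) (Finset.mem_univ fun _ => a))
      simp
    have hsurj : SurjOn τ S S := by
      intro b hb
      have hb' : (0 : ℝ) < _ := hb.trans_eq (key b)
      obtain ⟨y, -, hy⟩ := Finset.exists_ne_zero_of_sum_ne_zero hb'.ne'
      split_ifs at hy with h
      · refine ⟨y 0, ?_, h⟩
        have e : (fun _ => y 0) = y := funext fun j => congrArg y (Subsingleton.elim 0 j)
        show 0 < w 1 fun _ => y 0
        rw [e]
        exact lt_of_le_of_ne (w0 _ _) (Ne.symm hy)
      · exact absurd rfl hy
    exact ⟨hmap, (Finset.injOn_of_surjOn_of_card_le τ (s := S.toFinset) (t := S.toFinset)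
      (by simpa using hmap) (by simpa using hsurj) le_rfl).mono (by simp), hsurj⟩
  have letterS : ∀ n y, 0 < w n y → ∀ j, y j ∈ S := by
    intro n y hy j
    refine hy.trans_le ?_
    have hsub : win T f n ⁻¹' {y} ⊆ T^[(j : ℕ)] ⁻¹' (win T f 1 ⁻¹' {fun _ => y j}) := by
      intro ω hω
      simp only [mem_preimage, mem_singleton_iff] at hω ⊢
      funext l
      simp [win, Subsingleton.elim l 0, ← hω]
    exact (measureReal_mono hsub).trans_eq
      (real_preimage_iterate hT _ (hWm 1 (measurableSet_singleton _)))
  -- moving one argument
  have move : ∀ n (r : Fin (d + 2) → Fin n → A) (i : Fin (d + 2)),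
      (∀ l, l ≠ i → 0 < w n (r l)) → ∀ z, 0 < w n z →
      ∃ y, (fun j => F fun l => Function.update r i y l j) = z ∧ w n y = w n z := by
    intro n r i hr z hz
    have h := marg n r i hr z
    rw [← hw] at h
    obtain ⟨y, -, hy⟩ := Finset.exists_ne_zero_of_sum_ne_zero (h ▸ hz.ne')
    split_ifs at hy with hyz
    · refine ⟨y, hyz, ?_⟩
      rw [h, Finset.sum_eq_single y ?_ (by simp), if_pos hyz]
      intro y' _ hne
      by_contra h'
      split_ifs at h' with hy'z
      · refine hne (funext fun j => ?_)
        refine (Sinv i (fun l => r l j) (fun l hl => letterS n _ (hr l hl) j)).injOn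
          (letterS n y' (lt_of_le_of_ne (w0 _ _) (Ne.symm h')) j)
          (letterS n y (lt_of_le_of_ne (w0 _ _) (Ne.symm hy)) j) ?_
        have e : ∀ y : Fin n → A, (fun l => Function.update r i y l j) =
            Function.update (fun l => r l j) i (y j) := fun y => by
          funext l
          rcases eq_or_ne l i with rfl | hl
          · simp
          · simp [Function.update_of_ne hl]
        show F _ = F _
        rw [← e, ← e]
        exact (congrFun hy'z j).trans (congrFun hyz j).symm
      · exact h' rfl
    · exact absurd rfl hy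
  have uniform : ∀ n y z, 0 < w n y → 0 < w n z → w n y = w n z := by
    intro n y z hy hz
    obtain ⟨a, ha, hwa⟩ := move n (fun _ => y) 1 (fun _ _ => hy) z hz
    set r := Function.update (fun _ : Fin (d + 2) => y) 1 a with hr
    have hrpos : ∀ l, 0 < w n (r l) := fun l => by
      rcases eq_or_ne l 1 with rfl | h
      · rw [hr, Function.update_self, hwa]; exact hz
      · rw [hr, Function.update_of_ne h]; exact hy
    obtain ⟨b, hb, hwb⟩ := move n r 0 (fun l _ => hrpos l) z hz
    have hby : b = y := by
      funext j
      have hbj : b j ∈ S := letterS n b (hwb ▸ hz) j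
      refine (Sinv 0 (fun l => r l j) (fun l _ => letterS n _ (hrpos l) j)).injOn
        hbj (letterS n y hy j) ?_
      show F _ = F _
      have e : (fun l => Function.update r 0 b l j) = Function.update (fun l => r l j) 0 (b j) := by
        funext l
        rcases eq_or_ne l 0 with rfl | hl
        · simp
        · simp [Function.update_of_ne hl]
      have e' : (fun l => r l j) = Function.update (fun l => r l j) 0 (y j) := by
        rw [eq_comm, Function.update_eq_self_iff]
        have : (0 : Fin (d + 2)) ≠ 1 := by simp
        simp [hr]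
      rw [← e, ← e']
      exact (congrFun hb j).trans (congrFun ha j).symm
    rw [← hby, hwb]
  -- extensions of a window
  have split : ∀ n y, ∑ a, w (n + 1) (Fin.snoc y a) = w n y := by
    intro n y
    rw [show w n y = μ.real (win T f n ⁻¹' {y}) from rfl,
      ← sum_real_fibre (hf.comp (hTm.iterate n)) (win T f n ⁻¹' {y})]
    refine Finset.sum_congr rfl fun a _ => congrArg μ.real ?_
    ext ω
    simp only [Set.mem_inter_iff, mem_preimage, mem_singleton_iff, Function.comp_apply]
    constructor
    · intro h
      constructor
      · funext j; simpa [win] using congrFun h j.castSucc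
      · simpa [win] using congrFun h (Fin.last n)
    · rintro ⟨h1, h2⟩
      funext j
      refine Fin.lastCases ?_ (fun j => ?_) j
      · simpa [win] using h2
      · simpa [win] using congrFun h1 j
  by_cases hdet : ∃ m y a, 0 < w m y ∧ w (m + 1) (Fin.snoc y a) = w m y
  · -- periodic case
    obtain ⟨m, y₀, a₀, hy₀, ha₀⟩ := hdet
    have one : ∀ y, 0 < w m y → ∀ a, 0 < w (m + 1) (Fin.snoc y a) →
        w (m + 1) (Fin.snoc y a) = w m y := fun y hy a ha => by
      rw [uniform _ _ _ ha (ha₀ ▸ hy₀), ha₀, uniform _ _ _ hy₀ hy]
    have hg : ∀ y, ∃ a, ∀ a', a' ≠ a → w (m + 1) (Fin.snoc y a') = 0 := by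
      intro y
      by_cases hy : 0 < w m y
      · obtain ⟨a, -, ha⟩ := Finset.exists_ne_zero_of_sum_ne_zero ((split m y).trans_ne hy.ne')
        refine ⟨a, fun a' ha' => ?_⟩
        have h2 := Finset.sum_le_sum_of_subset_of_nonneg (Finset.subset_univ {a, a'})
          fun b _ _ => w0 (m + 1) (Fin.snoc y b)
        rw [Finset.sum_pair ha'.symm, split,
          one y hy a (lt_of_le_of_ne (w0 _ _) (Ne.symm ha))] at h2
        linarith [w0 (m + 1) (Fin.snoc y a')]
      · refine ⟨a₀, fun a' _ => le_antisymm ?_ (w0 _ _)⟩
        have := Finset.single_le_sum (fun b _ => w0 (m + 1) (Fin.snoc y b)) (Finset.mem_univ a')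
        rw [split] at this
        linarith
    choose g hg using hg
    set H : (Fin m → A) → (Fin m → A) := fun y j =>
      (Fin.snoc y (g y) : Fin (m + 1) → A) j.succ with hH
    have step : ∀ᵐ ω ∂μ, win T f m (T ω) = H (win T f m ω) := by
      have h1 : ∀ᵐ ω ∂μ, ∀ y' : Fin (m + 1) → A, w (m + 1) y' = 0 → win T f (m + 1) ω ≠ y' := by
        refine ae_all_iff.2 fun y' => ?_
        by_cases h : w (m + 1) y' = 0
        · have h0 : μ (win T f (m + 1) ⁻¹' {y'}) = 0 := (measureReal_eq_zero_iff).1 h
          filter_upwards [measure_eq_zero_iff_ae_notMem.1 h0] with ω hω _ using hω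
        · exact ae_of_all _ fun ω h' => absurd h' h
      filter_upwards [h1] with ω hω
      have e : win T f (m + 1) ω = Fin.snoc (win T f m ω) (g (win T f m ω)) := by
        have e0 : win T f (m + 1) ω = Fin.snoc (win T f m ω) (f (T^[m] ω)) := by
          funext j
          refine Fin.lastCases ?_ (fun j => ?_) j <;> simp [win]
        rw [e0]
        by_contra hne
        exact hω _ (hg _ _ fun h => hne (by rw [h])) e0
      funext j
      have := congrFun e j.succ
      simpa [hH, win, Function.iterate_succ_apply] using this
    have iter : ∀ j, ∀ᵐ ω ∂μ, win T f m (T^[j] ω) = H^[j] (win T f m ω) := by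
      intro j
      induction j with
      | zero => simp
      | succ j ih =>
        filter_upwards [ih, (hT.iterate j).quasiMeasurePreserving.ae step] with ω h1 h2
        rw [Function.iterate_succ_apply' T, h2, h1, Function.iterate_succ_apply' H]
    obtain ⟨i, j, hij, hHij⟩ := Finite.exists_ne_map_eq_of_infinite (fun j : ℕ => H^[j])
    wlog hlt : i < j generalizing i j
    · exact this j i hij.symm hHij.symm (lt_of_le_of_ne (not_lt.1 hlt) hij.symm)
    -- the process is periodic
    have glast : ∀ᵐ ω ∂μ, f (T^[m] ω) = g (win T f m ω) := by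
      have h1 : ∀ᵐ ω ∂μ, ∀ y' : Fin (m + 1) → A, w (m + 1) y' = 0 → win T f (m + 1) ω ≠ y' := by
        refine ae_all_iff.2 fun y' => ?_
        by_cases h : w (m + 1) y' = 0
        · have h0 : μ (win T f (m + 1) ⁻¹' {y'}) = 0 := (measureReal_eq_zero_iff).1 h
          filter_upwards [measure_eq_zero_iff_ae_notMem.1 h0] with ω hω _ using hω
        · exact ae_of_all _ fun ω h' => absurd h' h
      filter_upwards [h1] with ω hω
      by_contra hne
      refine hω _ (hg (win T f m ω) _ hne) ?_
      funext j
      refine Fin.lastCases ?_ (fun j => ?_) j <;> simp [win]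
    have hper : ∀ᵐ ω ∂μ, f (T^[j - i] ω) = f ω := by
      have h : ∀ᵐ ω ∂μ, f (T^[m + j] ω) = f (T^[m + i] ω) := by
        filter_upwards [iter i, iter j, (hT.iterate i).quasiMeasurePreserving.ae glast,
          (hT.iterate j).quasiMeasurePreserving.ae glast] with ω h1 h2 h3 h4
        rw [Function.iterate_add_apply, Function.iterate_add_apply, h3, h4, h1, h2]
        exact congrArg g (congrFun hHij _).symm
      have hms : MeasurableSet {ω | f (T^[j - i] ω) = f ω}ᶜ :=
        (measurableSet_eq_fun (hf.comp (hTm.iterate _)) hf).compl
      rw [ae_iff] at h ⊢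
      rw [← Set.compl_ofPred, ← (hT.iterate (m + i)).measure_preimage hms.nullMeasurableSet]
      refine Eq.trans (congrArg μ ?_) h
      ext ω
      simp only [Set.preimage_compl, Set.mem_compl_iff, mem_preimage, mem_ofPred_eq,
        ← Function.iterate_add_apply]
      rw [show j - i + (m + i) = m + j by omega]
    have hperk : ∀ k, ∀ᵐ ω ∂μ, f (T^[(j - i) * k] ω) = f ω := by
      intro k
      induction k with
      | zero => simp
      | succ k ih =>
        filter_upwards [hper, (hT.iterate (j - i)).quasiMeasurePreserving.ae ih] with ω h1 h2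
        rw [Nat.mul_succ, Function.iterate_add_apply, h2, h1]
    have zero_one : ∀ a, μ.real (f ⁻¹' {a}) = 0 ∨ μ.real (f ⁻¹' {a}) = 1 := by
      intro a
      have hca : MeasurableSet (f ⁻¹' {a}) := hf (measurableSet_singleton a)
      set P := j - i with hP
      have hP0 : 0 < P := by omega
      have h01 : (0 : Fin (d + 2)) ≠ Fin.last (d + 1) := by simp [Fin.ext_iff]
      have hm := hmix (fun l => if l = 0 ∨ l = Fin.last (d + 1) then f ⁻¹' {a} else univ)
        (fun k l => l.val * (P * k)) (fun l => by split_ifs <;> simp [hca]) (fun a b hab => by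
          refine tendsto_atTop_mono (fun k => ?_) tendsto_id
          have h1 : a.val < b.val := hab
          have h2 : a.val * (P * k) + P * k ≤ b.val * (P * k) := by
            rw [← Nat.succ_mul]; exact Nat.mul_le_mul_right _ h1
          have h3 : k ≤ P * k := Nat.le_mul_of_pos_left k hP0
          simp only [id]
          omega)
      have hprod : ∏ l : Fin (d + 2), μ.real
          (if l = 0 ∨ l = Fin.last (d + 1) then f ⁻¹' {a} else univ) =
          μ.real (f ⁻¹' {a}) * μ.real (f ⁻¹' {a}) := by
        rw [← Finset.prod_subset (Finset.subset_univ {0, Fin.last (d + 1)}) ?_, Finset.prod_pair h01]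
        · simp
        · intro l _ hl
          simp only [Finset.mem_insert, Finset.mem_singleton] at hl
          simp [hl]
      have hconst : ∀ k, μ.real (⋂ l : Fin (d + 2), T^[l.val * (P * k)] ⁻¹'
          (if l = 0 ∨ l = Fin.last (d + 1) then f ⁻¹' {a} else univ)) = μ.real (f ⁻¹' {a}) := by
        intro k
        refine measureReal_congr ?_
        rw [Filter.eventuallyEq_set]
        filter_upwards [hperk ((d + 1) * k)] with ω hω
        simp only [Set.mem_iInter, mem_preimage]
        constructor
        · intro h
          simpa using h 0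
        · intro h l
          split_ifs with hl
          · rcases hl with rfl | rfl
            · simpa using h
            · simp only [mem_preimage, mem_singleton_iff, Fin.val_last] at h ⊢
              rw [show (d + 1) * (P * k) = P * ((d + 1) * k) by ring, hω, h]
          · exact Set.mem_univ _
      rw [hprod] at hm
      simp only [hconst] at hm
      have := tendsto_nhds_unique hm tendsto_const_nhds
      rcases eq_or_ne (μ.real (f ⁻¹' {a})) 0 with h | h
      · exact Or.inl h
      · exact Or.inr (mul_left_cancel₀ h (by linarith))
    have hsum : ∑ a, μ.real (f ⁻¹' {a}) = 1 := by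
      simpa using sum_real_fibre (μ := μ) hf univ
    obtain ⟨a, -, ha⟩ := Finset.exists_ne_zero_of_sum_ne_zero (hsum.trans_ne one_ne_zero)
    refine ⟨a, (mem_ae_iff_prob_eq_one (hf (measurableSet_singleton a))).2 ?_⟩
    rw [← ofReal_measureReal, (zero_one a).resolve_left ha, ENNReal.ofReal_one]
  · -- otherwise every prediction of the last value fails half of the time
    exfalso
    push Not at hdet
    obtain ⟨y₁, hy₁⟩ := wex 1
    have half : ∀ n y a, w (n + 1) (Fin.snoc y a) ≤ w n y / 2 := by
      intro n y a
      have hle : ∀ b, w (n + 1) (Fin.snoc y b) ≤ w n y := fun b =>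
        (Finset.single_le_sum (fun b _ => w0 _ _) (Finset.mem_univ b)).trans_eq (split n y)
      by_cases ha : 0 < w (n + 1) (Fin.snoc y a)
      · have hy := ha.trans_le (hle a)
        obtain ⟨b, hab, hb⟩ : ∃ b, a ≠ b ∧ 0 < w (n + 1) (Fin.snoc y b) := by
          by_contra h
          push Not at h
          refine hdet n y a hy ?_
          rw [← split n y, Finset.sum_eq_single a
            (fun b _ hb => le_antisymm (h b hb.symm) (w0 _ _)) (by simp)]
        have h2 := Finset.sum_le_sum_of_subset_of_nonneg (Finset.subset_univ {a, b})
          fun c _ _ => w0 (n + 1) (Fin.snoc y c)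
        rw [Finset.sum_pair hab, split, uniform _ _ _ hb ha] at h2
        linarith
      · linarith [w0 n y]
    have guess : ∀ n (Φ : (Fin n → A) → A),
        μ.real {ω | f (T^[n] ω) = Φ (win T f n ω)} ≤ 1 / 2 := by
      intro n Φ
      rw [← sum_real_fibre (hWm n)]
      calc ∑ y, μ.real ({ω | f (T^[n] ω) = Φ (win T f n ω)} ∩ win T f n ⁻¹' {y})
          ≤ ∑ y, w n y / 2 := Finset.sum_le_sum fun y _ => by
            refine le_trans (measureReal_mono ?_) (half n y (Φ y))
            rintro ω ⟨h1, h2⟩
            simp only [mem_preimage, mem_singleton_iff, mem_ofPred_eq] at h1 h2 ⊢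
            funext j
            refine Fin.lastCases ?_ (fun j => ?_) j
            · simpa [win, ← h2] using h1
            · simp [win, ← h2]
        _ = 1 / 2 := by rw [← Finset.sum_div, wsum]
    -- the last value is a function of the others
    let Rel : (Fin (d + 3) → A) → Prop := fun x =>
      x p = F (fun l => x (p.succAbove l)) ∧ ∀ l, x l ∈ S
    have uniq : ∀ v a b, Rel (Fin.snoc v a) → Rel (Fin.snoc v b) → a = b := by
      intro v a b ha hb
      rcases eq_or_ne p (Fin.last (d + 2)) with rfl | hp
      · simpa [Rel, Fin.succAbove_last] using ha.1.trans (by simpa [Fin.succAbove_last] using hb.1.symm)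
      · obtain ⟨q, hq⟩ := Fin.exists_succAbove_eq (Ne.symm hp)
        obtain ⟨p', rfl⟩ := Fin.exists_castSucc_eq.2 hp
        set r : Fin (d + 2) → A := fun l => (Fin.snoc v a : Fin (d + 3) → A) (p'.castSucc.succAbove l)
          with hr
        have e : ∀ c, (fun l => (Fin.snoc v c : Fin (d + 3) → A) (p'.castSucc.succAbove l)) =
            Function.update r q c := by
          intro c
          funext l
          rcases eq_or_ne l q with rfl | hl
          · simp [hq]
          · have hne : p'.castSucc.succAbove l ≠ Fin.last _ := fun h =>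
              hl (Fin.succAbove_right_injective (h.trans hq.symm))
            obtain ⟨t, ht⟩ := Fin.exists_castSucc_eq.2 hne
            rw [Function.update_of_ne hl, hr]
            simp [← ht]
        refine (Sinv q r (fun l _ => ha.2 _)).injOn ?_ ?_ ?_
        · simpa using ha.2 (Fin.last _)
        · simpa using hb.2 (Fin.last _)
        · have h1 := ha.1
          have h2 := hb.1
          rw [e] at h1 h2
          simp only [Fin.snoc_castSucc] at h1 h2
          exact h1.symm.trans h2
    have : Nonempty A := ⟨y₁ 0⟩
    let φ : (Fin (d + 2) → A) → A := fun v => Classical.epsilon fun a => Rel (Fin.snoc v a)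
    have mass1 : ∀ᵐ ω ∂μ, f ω ∈ S := by
      have : ∀ᵐ ω ∂μ, ∀ a, a ∉ S → f ω ≠ a := by
        refine ae_all_iff.2 fun a => ?_
        by_cases ha : a ∈ S
        · exact ae_of_all _ fun ω h => absurd ha h
        · have h0 : μ (win T f 1 ⁻¹' {fun _ => a}) = 0 :=
            (measureReal_eq_zero_iff).1 (le_antisymm (not_lt.1 ha) (w0 _ _))
          filter_upwards [measure_eq_zero_iff_ae_notMem.1 h0] with ω hω _ hfa
          exact hω (funext fun l => by simp [win, Subsingleton.elim l 0, hfa])
      filter_upwards [this] with ω hω
      by_contra h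
      exact hω _ h rfl
    have hev : ∀ᶠ k in atTop, ∀ l : Fin (d + 2), s k 0 ≤ s k l.castSucc ∧
        s k l.castSucc < s k (Fin.last (d + 2)) := by
      refine eventually_all.2 fun l => ?_
      have h1 := (hs l.castSucc (Fin.last _) (Fin.castSucc_lt_last l)).eventually_ge_atTop 1
      rcases eq_or_ne l 0 with rfl | hl
      · filter_upwards [h1] with k hk
        constructor
        · simp
        · omega
      · have h2 := (hs 0 l.castSucc (Fin.pos_iff_ne_zero.2 (by simpa using hl))).eventually_ge_atTop 1
        filter_upwards [h1, h2] with k hk hk'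
        constructor <;> omega
    have hbound : ∀ᶠ k in atTop, μ.real
        {ω | f (T^[s k p] ω) = F fun i => f (T^[s k (p.succAbove i)] ω)} ≤ 1 / 2 := by
      filter_upwards [hev] with k hk
      set n := s k (Fin.last (d + 2)) - s k 0 with hn
      set Φ : (Fin n → A) → A := fun y =>
        φ fun l => y ⟨s k l.castSucc - s k 0, by have := hk l; omega⟩ with hΦ
      have hms : MeasurableSet {ω | f (T^[n] ω) = Φ (win T f n ω)} :=
        measurableSet_eq_fun (hf.comp (hTm.iterate _)) ((measurable_of_finite Φ).comp (hWm n))
      refine le_trans ?_ (guess n Φ)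
      rw [← real_preimage_iterate hT (s k 0) hms]
      simp only [measureReal_def]
      refine ENNReal.toReal_mono (measure_ne_top μ _) (measure_mono_ae ?_)
      filter_upwards [ae_all_iff.2 fun l => (hT.iterate (s k l)).quasiMeasurePreserving.ae mass1]
        with ω hω hrelω
      show f (T^[n] (T^[s k 0] ω)) = Φ (win T f n (T^[s k 0] ω))
      have hlast : s k 0 ≤ s k (Fin.last (d + 2)) := by have := hk 0; omega
      have ev : (fun l : Fin (d + 2) => win T f n (T^[s k 0] ω)
          ⟨s k l.castSucc - s k 0, by have := hk l; omega⟩) =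
          fun l => f (T^[s k l.castSucc] ω) := by
        funext l
        simp only [win, ← Function.iterate_add_apply]
        rw [Nat.sub_add_cancel (hk l).1]
      have hn' : n + s k 0 = s k (Fin.last (d + 2)) := Nat.sub_add_cancel hlast
      rw [hΦ, ← Function.iterate_add_apply, hn']
      simp only [ev]
      have hx : (Fin.snoc (fun l : Fin (d + 2) => f (T^[s k l.castSucc] ω))
          (f (T^[s k (Fin.last (d + 2))] ω)) : Fin (d + 3) → A) = fun l => f (T^[s k l] ω) :=
        funext fun l => by refine Fin.lastCases ?_ (fun l => ?_) l <;> simp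
      have hR : Rel (Fin.snoc (fun l : Fin (d + 2) => f (T^[s k l.castSucc] ω))
          (f (T^[s k (Fin.last (d + 2))] ω))) := by
        rw [hx]; exact ⟨hrelω, hω⟩
      exact uniq _ _ _ hR (Classical.epsilon_spec
        (p := fun a => Rel (Fin.snoc (fun l : Fin (d + 2) => f (T^[s k l.castSucc] ω)) a)) ⟨_, hR⟩)
    linarith [le_of_tendsto hrel hbound]

end Vale.Agent.Results.P102.NoExactWitness
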